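import Vale.Agent.P333.H241.Tg.Str

set_option autoImplicit false
set_option maxRecDepth 100000

/-!
P333: forced greedy steps.
-/

namespace Vale.Agent.P333.H241.Tg

open Vale.Agent.P333.H241

theorem st0 (n : ℕ) (h : Len (m0 :: [x0, y0, x1, y1, x2, y2, x3, y3, x4, y4, x5, y5, h0, h1, h2, h5, h6]) n) :
    Len [x0, y0, x1, y1, x2, y2, x3, y3, x4, y4, x5, y5, h0, h1, h2, h3, h4, h5, h6] n := by
  have hp : List.Perm [x0, y0, x1, y1, x2, y2, x3, y3, x4, y4, x5, y5, h0, h1, h2, h3, h4, h5, h6] (h3 :: h4 :: [x0, y0, x1, y1, x2, y2, x3, y3, x4, y4, x5, y5, h0, h1, h2, h5, h6]) := by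
    rw [← List.isPerm_iff]
    decide +kernel
  have hnd : List.Nodup (h3 :: h4 :: [x0, y0, x1, y1, x2, y2, x3, y3, x4, y4, x5, y5, h0, h1, h2, h5, h6]) := by decide +kernel
  have hk : List.drop (h3.length - (138 + 1)) h3 = List.take (138 + 1) h4 := by decide +kernel
  have hg : goodEx h3 h4 (h3 :: h4 :: [x0, y0, x1, y1, x2, y2, x3, y3, x4, y4, x5, y5, h0, h1, h2, h5, h6]) 138 = true := by decide +kernel
  have hgxy : noOv (138 + 1) h4 h3 h3.length = true := by decide +kernel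
  have hm : List.take (h3.length - (138 + 1)) h3 ++ h4 = m0 := by decide +kernel
  exact forced h3 h4 m0 [x0, y0, x1, y1, x2, y2, x3, y3, x4, y4, x5, y5, h0, h1, h2, h5, h6] 138 n hp hnd (by decide +kernel) hk hg hgxy hm h

theorem st1 (n : ℕ) (h : Len (m1 :: [m0, x0, y0, x1, y1, x2, y2, x4, y4, x5, y5, h0, h1, h2, h5, h6]) n) :
    Len [m0, x0, y0, x1, y1, x2, y2, x3, y3, x4, y4, x5, y5, h0, h1, h2, h5, h6] n := by
  have hp : List.Perm [m0, x0, y0, x1, y1, x2, y2, x3, y3, x4, y4, x5, y5, h0, h1, h2, h5, h6] (x3 :: y3 :: [m0, x0, y0, x1, y1, x2, y2, x4, y4, x5, y5, h0, h1, h2, h5, h6]) := by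
    rw [← List.isPerm_iff]
    decide +kernel
  have hnd : List.Nodup (x3 :: y3 :: [m0, x0, y0, x1, y1, x2, y2, x4, y4, x5, y5, h0, h1, h2, h5, h6]) := by decide +kernel
  have hk : List.drop (x3.length - (136 + 1)) x3 = List.take (136 + 1) y3 := by decide +kernel
  have hg : goodEx x3 y3 (x3 :: y3 :: [m0, x0, y0, x1, y1, x2, y2, x4, y4, x5, y5, h0, h1, h2, h5, h6]) 136 = true := by decide +kernel
  have hgxy : noOv (136 + 1) y3 x3 x3.length = true := by decide +kernel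
  have hm : List.take (x3.length - (136 + 1)) x3 ++ y3 = m1 := by decide +kernel
  exact forced x3 y3 m1 [m0, x0, y0, x1, y1, x2, y2, x4, y4, x5, y5, h0, h1, h2, h5, h6] 136 n hp hnd (by decide +kernel) hk hg hgxy hm h

theorem st2 (n : ℕ) (h : Len (m2 :: [m1, x0, y0, x1, y1, x2, y2, x4, y4, x5, y5, h0, h1, h5, h6]) n) :
    Len [m1, m0, x0, y0, x1, y1, x2, y2, x4, y4, x5, y5, h0, h1, h2, h5, h6] n := by
  have hp : List.Perm [m1, m0, x0, y0, x1, y1, x2, y2, x4, y4, x5, y5, h0, h1, h2, h5, h6] (h2 :: m0 :: [m1, x0, y0, x1, y1, x2, y2, x4, y4, x5, y5, h0, h1, h5, h6]) := by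
    rw [← List.isPerm_iff]
    decide +kernel
  have hnd : List.Nodup (h2 :: m0 :: [m1, x0, y0, x1, y1, x2, y2, x4, y4, x5, y5, h0, h1, h5, h6]) := by decide +kernel
  have hk : List.drop (h2.length - (123 + 1)) h2 = List.take (123 + 1) m0 := by decide +kernel
  have hg : goodEx h2 m0 (h2 :: m0 :: [m1, x0, y0, x1, y1, x2, y2, x4, y4, x5, y5, h0, h1, h5, h6]) 123 = true := by decide +kernel
  have hgxy : noOv (123 + 1) m0 h2 h2.length = true := by decide +kernel
  have hm : List.take (h2.length - (123 + 1)) h2 ++ m0 = m2 := by decide +kernel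
  exact forced h2 m0 m2 [m1, x0, y0, x1, y1, x2, y2, x4, y4, x5, y5, h0, h1, h5, h6] 123 n hp hnd (by decide +kernel) hk hg hgxy hm h

theorem st3 (n : ℕ) (h : Len (m3 :: [m1, x0, y0, x1, y1, x2, y2, x4, y4, x5, y5, h0, h5, h6]) n) :
    Len [m2, m1, x0, y0, x1, y1, x2, y2, x4, y4, x5, y5, h0, h1, h5, h6] n := by
  have hp : List.Perm [m2, m1, x0, y0, x1, y1, x2, y2, x4, y4, x5, y5, h0, h1, h5, h6] (h1 :: m2 :: [m1, x0, y0, x1, y1, x2, y2, x4, y4, x5, y5, h0, h5, h6]) := by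
    rw [← List.isPerm_iff]
    decide +kernel
  have hnd : List.Nodup (h1 :: m2 :: [m1, x0, y0, x1, y1, x2, y2, x4, y4, x5, y5, h0, h5, h6]) := by decide +kernel
  have hk : List.drop (h1.length - (122 + 1)) h1 = List.take (122 + 1) m2 := by decide +kernel
  have hg : goodEx h1 m2 (h1 :: m2 :: [m1, x0, y0, x1, y1, x2, y2, x4, y4, x5, y5, h0, h5, h6]) 122 = true := by decide +kernel
  have hgxy : noOv (122 + 1) m2 h1 h1.length = true := by decide +kernel
  have hm : List.take (h1.length - (122 + 1)) h1 ++ m2 = m3 := by decide +kernel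
  exact forced h1 m2 m3 [m1, x0, y0, x1, y1, x2, y2, x4, y4, x5, y5, h0, h5, h6] 122 n hp hnd (by decide +kernel) hk hg hgxy hm h

end Vale.Agent.P333.H241.Tg
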