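import Vale.Agent.P333.H241.Tg.Str

set_option autoImplicit false
set_option maxRecDepth 100000

/-!
P333: forced greedy steps.
-/

namespace Vale.Agent.P333.H241.Tg

open Vale.Agent.P333.H241

theorem st4 (n : ℕ) (h : Len (m4 :: [m3, m1, x0, y0, x1, y1, x4, y4, x5, y5, h0, h5, h6]) n) :
    Len [m3, m1, x0, y0, x1, y1, x2, y2, x4, y4, x5, y5, h0, h5, h6] n := by
  have hp : List.Perm [m3, m1, x0, y0, x1, y1, x2, y2, x4, y4, x5, y5, h0, h5, h6] (x2 :: y2 :: [m3, m1, x0, y0, x1, y1, x4, y4, x5, y5, h0, h5, h6]) := by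
    rw [← List.isPerm_iff]
    decide +kernel
  have hnd : List.Nodup (x2 :: y2 :: [m3, m1, x0, y0, x1, y1, x4, y4, x5, y5, h0, h5, h6]) := by decide +kernel
  have hk : List.drop (x2.length - (121 + 1)) x2 = List.take (121 + 1) y2 := by decide +kernel
  have hg : goodEx x2 y2 (x2 :: y2 :: [m3, m1, x0, y0, x1, y1, x4, y4, x5, y5, h0, h5, h6]) 121 = true := by decide +kernel
  have hgxy : noOv (121 + 1) y2 x2 x2.length = true := by decide +kernel
  have hm : List.take (x2.length - (121 + 1)) x2 ++ y2 = m4 := by decide +kernel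
  exact forced x2 y2 m4 [m3, m1, x0, y0, x1, y1, x4, y4, x5, y5, h0, h5, h6] 121 n hp hnd (by decide +kernel) hk hg hgxy hm h

theorem st5 (n : ℕ) (h : Len (m5 :: [m4, m3, m1, x0, y0, x4, y4, x5, y5, h0, h5, h6]) n) :
    Len [m4, m3, m1, x0, y0, x1, y1, x4, y4, x5, y5, h0, h5, h6] n := by
  have hp : List.Perm [m4, m3, m1, x0, y0, x1, y1, x4, y4, x5, y5, h0, h5, h6] (x1 :: y1 :: [m4, m3, m1, x0, y0, x4, y4, x5, y5, h0, h5, h6]) := by
    rw [← List.isPerm_iff]
    decide +kernel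
  have hnd : List.Nodup (x1 :: y1 :: [m4, m3, m1, x0, y0, x4, y4, x5, y5, h0, h5, h6]) := by decide +kernel
  have hk : List.drop (x1.length - (120 + 1)) x1 = List.take (120 + 1) y1 := by decide +kernel
  have hg : goodEx x1 y1 (x1 :: y1 :: [m4, m3, m1, x0, y0, x4, y4, x5, y5, h0, h5, h6]) 120 = true := by decide +kernel
  have hgxy : noOv (120 + 1) y1 x1 x1.length = true := by decide +kernel
  have hm : List.take (x1.length - (120 + 1)) x1 ++ y1 = m5 := by decide +kernel
  exact forced x1 y1 m5 [m4, m3, m1, x0, y0, x4, y4, x5, y5, h0, h5, h6] 120 n hp hnd (by decide +kernel) hk hg hgxy hm h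

theorem st6 (n : ℕ) (h : Len (m6 :: [m5, m4, m1, x0, y0, x4, y4, x5, y5, h5, h6]) n) :
    Len [m5, m4, m3, m1, x0, y0, x4, y4, x5, y5, h0, h5, h6] n := by
  have hp : List.Perm [m5, m4, m3, m1, x0, y0, x4, y4, x5, y5, h0, h5, h6] (h0 :: m3 :: [m5, m4, m1, x0, y0, x4, y4, x5, y5, h5, h6]) := by
    rw [← List.isPerm_iff]
    decide +kernel
  have hnd : List.Nodup (h0 :: m3 :: [m5, m4, m1, x0, y0, x4, y4, x5, y5, h5, h6]) := by decide +kernel
  have hk : List.drop (h0.length - (105 + 1)) h0 = List.take (105 + 1) m3 := by decide +kernel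
  have hg : goodEx h0 m3 (h0 :: m3 :: [m5, m4, m1, x0, y0, x4, y4, x5, y5, h5, h6]) 105 = true := by decide +kernel
  have hgxy : noOv (105 + 1) m3 h0 h0.length = true := by decide +kernel
  have hm : List.take (h0.length - (105 + 1)) h0 ++ m3 = m6 := by decide +kernel
  exact forced h0 m3 m6 [m5, m4, m1, x0, y0, x4, y4, x5, y5, h5, h6] 105 n hp hnd (by decide +kernel) hk hg hgxy hm h

theorem st7 (n : ℕ) (h : Len (m7 :: [m6, m5, m4, m1, x4, y4, x5, y5, h5, h6]) n) :
    Len [m6, m5, m4, m1, x0, y0, x4, y4, x5, y5, h5, h6] n := by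
  have hp : List.Perm [m6, m5, m4, m1, x0, y0, x4, y4, x5, y5, h5, h6] (x0 :: y0 :: [m6, m5, m4, m1, x4, y4, x5, y5, h5, h6]) := by
    rw [← List.isPerm_iff]
    decide +kernel
  have hnd : List.Nodup (x0 :: y0 :: [m6, m5, m4, m1, x4, y4, x5, y5, h5, h6]) := by decide +kernel
  have hk : List.drop (x0.length - (103 + 1)) x0 = List.take (103 + 1) y0 := by decide +kernel
  have hg : goodEx x0 y0 (x0 :: y0 :: [m6, m5, m4, m1, x4, y4, x5, y5, h5, h6]) 103 = true := by decide +kernel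
  have hgxy : noOv (103 + 1) y0 x0 x0.length = true := by decide +kernel
  have hm : List.take (x0.length - (103 + 1)) x0 ++ y0 = m7 := by decide +kernel
  exact forced x0 y0 m7 [m6, m5, m4, m1, x4, y4, x5, y5, h5, h6] 103 n hp hnd (by decide +kernel) hk hg hgxy hm h

end Vale.Agent.P333.H241.Tg
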