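import Vale.Agent.P333.H241.Tg.Str

set_option autoImplicit false
set_option maxRecDepth 100000

/-!
P333: forced greedy steps.
-/

namespace Vale.Agent.P333.H241.Tg

open Vale.Agent.P333.H241

theorem st8 (n : ℕ) (h : Len (m8 :: [m7, m5, m4, m1, x4, y4, x5, y5, h6]) n) :
    Len [m7, m6, m5, m4, m1, x4, y4, x5, y5, h5, h6] n := by
  have hp : List.Perm [m7, m6, m5, m4, m1, x4, y4, x5, y5, h5, h6] (m6 :: h5 :: [m7, m5, m4, m1, x4, y4, x5, y5, h6]) := by
    rw [← List.isPerm_iff]
    decide +kernel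
  have hnd : List.Nodup (m6 :: h5 :: [m7, m5, m4, m1, x4, y4, x5, y5, h6]) := by decide +kernel
  have hk : List.drop (m6.length - (77 + 1)) m6 = List.take (77 + 1) h5 := by decide +kernel
  have hg : goodEx m6 h5 (m6 :: h5 :: [m7, m5, m4, m1, x4, y4, x5, y5, h6]) 77 = true := by decide +kernel
  have hgxy : noOv (77 + 1) h5 m6 m6.length = true := by decide +kernel
  have hm : List.take (m6.length - (77 + 1)) m6 ++ h5 = m8 := by decide +kernel
  exact forced m6 h5 m8 [m7, m5, m4, m1, x4, y4, x5, y5, h6] 77 n hp hnd (by decide +kernel) hk hg hgxy hm h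

theorem st9 (n : ℕ) (h : Len (m9 :: [m8, m7, m5, m4, m1, x5, y5, h6]) n) :
    Len [m8, m7, m5, m4, m1, x4, y4, x5, y5, h6] n := by
  have hp : List.Perm [m8, m7, m5, m4, m1, x4, y4, x5, y5, h6] (x4 :: y4 :: [m8, m7, m5, m4, m1, x5, y5, h6]) := by
    rw [← List.isPerm_iff]
    decide +kernel
  have hnd : List.Nodup (x4 :: y4 :: [m8, m7, m5, m4, m1, x5, y5, h6]) := by decide +kernel
  have hk : List.drop (x4.length - (75 + 1)) x4 = List.take (75 + 1) y4 := by decide +kernel
  have hg : goodEx x4 y4 (x4 :: y4 :: [m8, m7, m5, m4, m1, x5, y5, h6]) 75 = true := by decide +kernel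
  have hgxy : noOv (75 + 1) y4 x4 x4.length = true := by decide +kernel
  have hm : List.take (x4.length - (75 + 1)) x4 ++ y4 = m9 := by decide +kernel
  exact forced x4 y4 m9 [m8, m7, m5, m4, m1, x5, y5, h6] 75 n hp hnd (by decide +kernel) hk hg hgxy hm h

theorem st10 (n : ℕ) (h : Len (m10 :: [m9, m7, m5, m4, m1, x5, y5]) n) :
    Len [m9, m8, m7, m5, m4, m1, x5, y5, h6] n := by
  have hp : List.Perm [m9, m8, m7, m5, m4, m1, x5, y5, h6] (m8 :: h6 :: [m9, m7, m5, m4, m1, x5, y5]) := by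
    rw [← List.isPerm_iff]
    decide +kernel
  have hnd : List.Nodup (m8 :: h6 :: [m9, m7, m5, m4, m1, x5, y5]) := by decide +kernel
  have hk : List.drop (m8.length - (73 + 1)) m8 = List.take (73 + 1) h6 := by decide +kernel
  have hg : goodEx m8 h6 (m8 :: h6 :: [m9, m7, m5, m4, m1, x5, y5]) 73 = true := by decide +kernel
  have hgxy : noOv (73 + 1) h6 m8 m8.length = true := by decide +kernel
  have hm : List.take (m8.length - (73 + 1)) m8 ++ h6 = m10 := by decide +kernel
  exact forced m8 h6 m10 [m9, m7, m5, m4, m1, x5, y5] 73 n hp hnd (by decide +kernel) hk hg hgxy hm h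

theorem st11 (n : ℕ) (h : Len (m11 :: [m10, m9, m7, m5, m4, m1]) n) :
    Len [m10, m9, m7, m5, m4, m1, x5, y5] n := by
  have hp : List.Perm [m10, m9, m7, m5, m4, m1, x5, y5] (x5 :: y5 :: [m10, m9, m7, m5, m4, m1]) := by
    rw [← List.isPerm_iff]
    decide +kernel
  have hnd : List.Nodup (x5 :: y5 :: [m10, m9, m7, m5, m4, m1]) := by decide +kernel
  have hk : List.drop (x5.length - (71 + 1)) x5 = List.take (71 + 1) y5 := by decide +kernel
  have hg : goodEx x5 y5 (x5 :: y5 :: [m10, m9, m7, m5, m4, m1]) 71 = true := by decide +kernel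
  have hgxy : noOv (71 + 1) y5 x5 x5.length = true := by decide +kernel
  have hm : List.take (x5.length - (71 + 1)) x5 ++ y5 = m11 := by decide +kernel
  exact forced x5 y5 m11 [m10, m9, m7, m5, m4, m1] 71 n hp hnd (by decide +kernel) hk hg hgxy hm h

end Vale.Agent.P333.H241.Tg
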